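import Vale.Agent.P283.M647.Defs

/-!
Pairs `(X', B')` with a correspondence of bounded degree to a pair of arrangement type.
-/

namespace Vale.Agent.P283.N647

open Vale.Agent.P283.Q Vale.Agent.P283.M647

variable {g R k N M : ℕ}

/-- `Z = Spec A`, and `L` is an extension of degree at most `J` of the purely transcendental
extension `ℂ(t_1, …, t_g, z_1, …, z_k)` of `ℂ`; `H_1, …, H_R` are hyperplanes in `ℙ^g`; `K = L^G`
for a group `G` of at most `J` automorphisms of `L`; and `A ⊆ K` has the same integral closure in
`L` as the ring generated by all monomials in the `ℓ_i` and `z_l` and their inverses with exponents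
in the dual of the cone spanned by the vectors `v j`; for every `v j`, at most one of the `ℓ_p` has
more than the least weight. So a Galois cover `Y'` of degree at most `J` of `X'` has a finite
morphism of degree at most `J` to a variety with an action of the torus with the coordinates `z_l`
and with the quotient `ℙ^g`. -/
structure IsNCover (J : ℕ) {K L : Type} [Field K] [Field L] [Algebra ℂ K] [Algebra ℂ L]
    [Algebra K L] (t : Fin g → L) (a : Fin R → Fin (g + 1) → ℂ) (z : Fin k → L)
    (v : Fin N → Fin R ⊕ Fin k → ℤ) (G : Subgroup (L ≃ₐ[ℂ] L)) (A : Subalgebra ℂ K) :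
    Prop where
  independent : AlgebraicIndependent ℂ (Fin.append t z)
  finiteDim : FiniteDimensional (IntermediateField.adjoin ℂ (Set.range (Fin.append t z))) L
  degree : Module.finrank (IntermediateField.adjoin ℂ (Set.range (Fin.append t z))) L ≤ J
  arr : IsArr a
  rays : ∀ j, OnRay (v j)
  finite : Finite G
  card : Nat.card G ≤ J
  field : ∀ x : L, x ∈ Set.range (algebraMap K L) ↔ ∀ τ ∈ G, τ x = x
  cover : ∀ b ∈ A, IsIntegral (Algebra.adjoin ℂ {x : L | ∃ u : Fin R ⊕ Fin k → ℤ,
    (∀ j, 0 ≤ ∑ x, v j x * u x) ∧ x = ∏ l, coord t a z l ^ u l}) (algebraMap K L b)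
  finiteCover : ∀ u : Fin R ⊕ Fin k → ℤ, (∀ j, 0 ≤ ∑ x, v j x * u x) →
    IsIntegral A (∏ l, coord t a z l ^ u l)

end Vale.Agent.P283.N647
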