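import Vale.Agent.P283.N647.E2

/-!
E1: finiteness, transcendence degree and Jacobian determinants.
-/

set_option linter.all false

namespace Vale.Agent.P283.N647

open Vale.Agent.P283.M647
open scoped KaehlerDifferential

theorem e1 : ExtBasics := by
  intro d L _ _ y h
  refine ⟨?_, E2.trdeg h, fun D' hD' => ?_⟩
  · haveI := h.fin
    haveI : Algebra.EssFiniteType ℂ (IntermediateField.adjoin ℂ (Set.range y)) :=
      IntermediateField.essFiniteType_iff.2
        (IntermediateField.fg_adjoin_of_finite (Set.finite_range y))
    exact Algebra.EssFiniteType.comp ℂ (IntermediateField.adjoin ℂ (Set.range y)) L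
  · obtain ⟨ω, hω, w⟩ := H647.exists_form (E2.trdeg h) D' hD'
    obtain ⟨B, hB⟩ := exists_kaehler_basis y (E2.isTB h)
    have h1 : wedgeD d y ≠ 0 := wedgeD_basis_ne_zero B hB
    intro h0
    rw [w, h0, zero_smul] at h1
    exact h1 rfl

end Vale.Agent.P283.N647
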