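import Vale.Agent.P283.N647.Props

/-!
E2: two families of derivations: the orders of the forms.
-/

set_option linter.all false

namespace Vale.Agent.P283.N647.E2

open Vale.Agent.P283.N647 Vale.Agent.P283.M647
open scoped KaehlerDifferential

variable {L : Type} [Field L] [Algebra ℂ L] {d : ℕ}

theorem isTB {y : Fin d → L} (h : IsFin y) : IsTranscendenceBasis ℂ y := by
  haveI := h.fin
  rw [isTranscendenceBasis_iff_algebraicIndependent_isAlgebraic]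
  refine ⟨h.ind, ?_⟩
  haveI : Algebra.IsAlgebraic (IntermediateField.adjoin ℂ (Set.range y)) L :=
    Algebra.IsAlgebraic.of_finite _ _
  open IntermediateField.algebraAdjoinAdjoin in
  exact (IsFractionRing.comap_isAlgebraic_iff (A := Algebra.adjoin ℂ (Set.range y))
    (K := IntermediateField.adjoin ℂ (Set.range y)) (C := L)).2 inferInstance

theorem trdeg {y : Fin d → L} (h : IsFin y) : Algebra.trdeg ℂ L = ((d : ℕ) : Cardinal) := by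
  rw [← (isTB h).cardinalMk_eq_trdeg]
  simp

theorem jac_scale {y : Fin d → L} (h : IsFin y) (D₁ D₂ : Fin d → Derivation ℂ L L) (h₁ h₂ : L)
    (e₁ : h₁ * Q.jac D₁ y = 1) (e₂ : h₂ * Q.jac D₂ y = 1) (f : Fin d → L) :
    h₁ * Q.jac D₁ f = h₂ * Q.jac D₂ f := by
  have n₁ : Q.jac D₁ y ≠ 0 := fun h0 => by rw [h0, mul_zero] at e₁; exact zero_ne_one e₁
  have n₂ : Q.jac D₂ y ≠ 0 := fun h0 => by rw [h0, mul_zero] at e₂; exact zero_ne_one e₂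
  obtain ⟨ω₁, hω₁, w₁⟩ := H647.exists_form (trdeg h) D₁ ⟨y, n₁⟩
  obtain ⟨ω₂, hω₂, w₂⟩ := H647.exists_form (trdeg h) D₂ ⟨y, n₂⟩
  have a₁ : ω₁ = h₁ • wedgeD d y := by rw [w₁, smul_smul, e₁, one_smul]
  have a₂ : ω₂ = h₂ • wedgeD d y := by rw [w₂, smul_smul, e₂, one_smul]
  have hy : wedgeD d y ≠ 0 := by
    intro h0
    rw [h0, smul_zero] at a₁
    exact hω₁ a₁
  have h3 : (Q.jac D₁ f * h₁) • wedgeD d y = (Q.jac D₂ f * h₂) • wedgeD d y := by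
    rw [← smul_smul, ← smul_smul, ← a₁, ← a₂, ← w₁, ← w₂]
  have h4 := smul_left_injective L hy h3
  linear_combination h4

theorem half {y : Fin d → L} (h : IsFin y) (D₁ D₂ : Fin d → Derivation ℂ L L) (h₁ h₂ : L)
    (e₁ : h₁ * Q.jac D₁ y = 1) (e₂ : h₂ * Q.jac D₂ y = 1)
    (w : AddValuation L (WithTop ℤ)) (m₁ m₂ : ℤ) (hm₁ : Q.FormOrder w D₁ m₁)
    (hm₂ : Q.FormOrder w D₂ m₂) : m₁ - ov w h₁ ≤ m₂ - ov w h₂ := by
  have n₁ : h₁ ≠ 0 := fun h0 => by rw [h0, zero_mul] at e₁; exact zero_ne_one e₁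
  have n₂ : h₂ ≠ 0 := fun h0 => by rw [h0, zero_mul] at e₂; exact zero_ne_one e₂
  obtain ⟨b, f, hb, hf, hbf⟩ := hm₁.1
  have hb0 : b ≠ 0 := fun h0 => by rw [h0, zero_mul] at hbf; exact zero_ne_one hbf
  have h5 := jac_scale h D₁ D₂ h₁ h₂ e₁ e₂ f
  have h6 : (b * (h₂ * h₁⁻¹)) * Q.jac D₂ f = 1 := by
    have : (b * (h₂ * h₁⁻¹)) * Q.jac D₂ f = b * h₁⁻¹ * (h₂ * Q.jac D₂ f) := by ring
    rw [this, ← h5]
    have : b * h₁⁻¹ * (h₁ * Q.jac D₁ f) = (h₁⁻¹ * h₁) * (b * Q.jac D₁ f) := by ring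
    rw [this, hbf, inv_mul_cancel₀ n₁, one_mul]
  have h7 : ov w (b * (h₂ * h₁⁻¹)) = m₁ + (ov w h₂ - ov w h₁) := by
    rw [ov_mul w hb0 (mul_ne_zero n₂ (inv_ne_zero n₁)), ov_mul w n₂ (inv_ne_zero n₁), ov_inv,
      ov_eq_of w hb]
    ring
  have h8 : ov w (b * (h₂ * h₁⁻¹)) ≤ m₂ :=
    hm₂.2 ⟨_, f, (coe_ov w (mul_ne_zero hb0 (mul_ne_zero n₂ (inv_ne_zero n₁)))).symm, hf, h6⟩
  rw [h7] at h8
  linarith

end Vale.Agent.P283.N647.E2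

namespace Vale.Agent.P283.N647

open E2

theorem e2 : OrdScale := by
  intro d L _ _ y h D₁ D₂ h₁ h₂ e₁ e₂ w m₁ m₂ hm₁ hm₂
  exact le_antisymm (half h D₁ D₂ h₁ h₂ e₁ e₂ w m₁ m₂ hm₁ hm₂)
    (half h D₂ D₁ h₂ h₁ e₂ e₁ w m₂ m₁ hm₂ hm₁)

end Vale.Agent.P283.N647
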