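import Vale.Agent.P283.N647.Props

/-!
E3. The ramification index is at most the degree.
-/

set_option linter.all false

namespace Vale.Agent.P283.N647

theorem e3 : RamLe := by
  classical
  intro K L _ _ _ _ v w e he hx hvw
  obtain ⟨x, hx⟩ := hx
  have hpow : ∀ i : ℕ, w (x ^ i) = ((i : ℤ) : WithTop ℤ) := by
    intro i
    rw [AddValuation.map_pow, hx]
    induction i with
    | zero => simp
    | succ n ih => rw [succ_nsmul, ih]; push_cast; rfl
  -- values of nonzero terms
  have hK : ∀ c : K, c ≠ 0 → ∃ n : ℤ, w (algebraMap K L c) = ((e * n : ℤ) : WithTop ℤ) := by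
    intro c hc
    have h1 : v c ≠ ⊤ := by
      intro h; exact hc ((AddValuation.top_iff v).1 h)
    obtain ⟨n, hn⟩ := WithTop.ne_top_iff_exists.1 h1
    refine ⟨n, ?_⟩
    rw [hvw, ← hn]
    rw [← WithTop.coe_nsmul]
    simp
  have hli : LinearIndependent K (fun i : Fin e => x ^ (i : ℕ)) := by
    rw [Fintype.linearIndependent_iff]
    intro c hc
    by_contra hne
    push Not at hne
    obtain ⟨i₀, hi₀⟩ := hne
    -- terms
    let S : Finset (Fin e) := Finset.univ.filter fun i => c i ≠ 0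
    have hS : S.Nonempty := ⟨i₀, by simp [S, hi₀]⟩
    obtain ⟨i₁, hi₁, hmin⟩ := Finset.exists_min_image S (fun i => w (c i • x ^ (i : ℕ))) hS
    have hterm : ∀ i ∈ S, ∃ n : ℤ, w (c i • x ^ (i : ℕ)) = ((e * n + (i : ℕ) : ℤ) : WithTop ℤ) := by
      intro i hi
      have hci : c i ≠ 0 := by simpa [S] using hi
      obtain ⟨n, hn⟩ := hK (c i) hci
      refine ⟨n, ?_⟩
      rw [Algebra.smul_def, AddValuation.map_mul, hn, hpow]
      push_cast; rfl
    have hinj : ∀ i ∈ S, ∀ j ∈ S, w (c i • x ^ (i : ℕ)) = w (c j • x ^ (j : ℕ)) → i = j := by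
      intro i hi j hj hij
      obtain ⟨n, hn⟩ := hterm i hi
      obtain ⟨m, hm⟩ := hterm j hj
      rw [hn, hm] at hij
      have h1 : (e * n + (i : ℕ) : ℤ) = e * m + (j : ℕ) := by exact_mod_cast hij
      have hi' : ((i : ℕ) : ℤ) < e := by exact_mod_cast i.2
      have hj' : ((j : ℕ) : ℤ) < e := by exact_mod_cast j.2
      have h2 : ((i : ℕ) : ℤ) = (j : ℕ) := by
        have h3 : (e * n + (i : ℕ) : ℤ) % e = (i : ℕ) := by
          rw [Int.add_comm, Int.add_mul_emod_self_left]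
          exact Int.emod_eq_of_lt (by positivity) hi'
        have h4 : (e * m + (j : ℕ) : ℤ) % e = (j : ℕ) := by
          rw [Int.add_comm, Int.add_mul_emod_self_left]
          exact Int.emod_eq_of_lt (by positivity) hj'
        rw [← h3, ← h4, h1]
      exact Fin.ext (by exact_mod_cast h2)
    have hlt : ∀ i ∈ S.erase i₁, w (c i₁ • x ^ (i₁ : ℕ)) < w (c i • x ^ (i : ℕ)) := by
      intro i hi
      rw [Finset.mem_erase] at hi
      refine lt_of_le_of_ne (hmin i hi.2) fun h => hi.1 (hinj i hi.2 i₁ hi₁ h.symm)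
    have hsum : c i₁ • x ^ (i₁ : ℕ) + ∑ i ∈ S.erase i₁, c i • x ^ (i : ℕ) = 0 := by
      rw [Finset.add_sum_erase S (fun i => c i • x ^ (i : ℕ)) hi₁]
      rw [← hc]
      rw [Finset.sum_filter]
      refine Finset.sum_congr rfl fun i _ => ?_
      by_cases h : c i = 0
      · simp [h]
      · simp [h]
    have hne0 : w (c i₁ • x ^ (i₁ : ℕ)) ≠ ⊤ := by
      obtain ⟨n, hn⟩ := hterm i₁ hi₁
      rw [hn]; exact WithTop.coe_ne_top
    have hbig : w (c i₁ • x ^ (i₁ : ℕ)) < w (∑ i ∈ S.erase i₁, c i • x ^ (i : ℕ)) :=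
      AddValuation.map_lt_sum w hne0 hlt
    have h2 : ∑ i ∈ S.erase i₁, c i • x ^ (i : ℕ) = -(c i₁ • x ^ (i₁ : ℕ)) :=
      eq_neg_of_add_eq_zero_right hsum
    rw [h2, AddValuation.map_neg] at hbig
    exact lt_irrefl _ hbig
  have := hli.fintype_card_le_finrank
  simpa using this

end Vale.Agent.P283.N647
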