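import Vale.Agent.P283.H820.E4

/-!
E4. Generic functions on a finite extension.
-/

namespace Vale.Agent.P283.N647

/-- E4. -/
theorem e4 (h1 : ExtBasics) (h2 : OrdScale) : GenericL := H820.e4 h1 h2

end Vale.Agent.P283.N647
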