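import Vale.Agent.P283.N647.Props
import Vale.Agent.P283.M647.D6

/-!
Row E5: the linear forms are not `0`, and the weights of a valuation.
-/

set_option linter.all false

namespace Vale.Agent.P283.N647

open Vale.Agent.P283.M647

namespace E5

variable {L : Type} [Field L] [Algebra ℂ L] {g R k : ℕ}

/-- A linear form is not zero. -/
theorem lin_ne {t : Fin g → L} {z : Fin k → L} (H : AlgebraicIndependent ℂ (Fin.append t z))
    {v : Fin (g + 1) → ℂ} (hv : v ≠ 0) :
    ∑ j, algebraMap ℂ L (v j) * (Fin.cons 1 t : Fin (g + 1) → L) j ≠ 0 := by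
  intro h0
  apply hv
  have h1 : MvPolynomial.aeval (Fin.append t z) (MvPolynomial.C (v 0) +
      ∑ j : Fin g, MvPolynomial.C (v j.succ) * MvPolynomial.X (Fin.castAdd k j) :
        MvPolynomial (Fin (g + k)) ℂ) = 0 := by
    rw [Fin.sum_univ_succ, Fin.cons_zero, mul_one] at h0
    simp only [Fin.cons_succ] at h0
    simp only [map_add, map_sum, map_mul, MvPolynomial.aeval_C, MvPolynomial.aeval_X,
      Fin.append_left]
    exact h0
  have h2 := H.eq_zero_of_aeval_eq_zero _ h1
  have h3 : ∀ x : Fin (g + k) → ℂ, v 0 + ∑ j : Fin g, v j.succ * x (Fin.castAdd k j) = 0 := by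
    intro x
    have h4 := congrArg (MvPolynomial.eval x) h2
    simpa using h4
  have h5 : v 0 = 0 := by simpa using h3 0
  funext j
  refine Fin.cases h5 (fun i => ?_) j
  have h6 := h3 (Pi.single (Fin.castAdd k i) 1)
  rw [h5, zero_add, Finset.sum_eq_single i] at h6
  · rwa [Pi.single_eq_same, mul_one] at h6
  · intro j' _ hj'
    rw [Pi.single_eq_of_ne, mul_zero]
    intro h7
    exact hj' (Fin.castAdd_injective g k h7)
  · intro h
    exact absurd (Finset.mem_univ _) h

theorem form_ne {t : Fin g → L} {z : Fin k → L} (H : AlgebraicIndependent ℂ (Fin.append t z))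
    {a : Fin R → Fin (g + 1) → ℂ} (ha : IsArr a) (hg : 0 < g) (p : Option (Fin R)) :
    form t a p ≠ 0 :=
  lin_ne H (D6.vec_ne ha hg p)

end E5

/-- E5. -/
theorem e5 : WtsTropL := by
  classical
  intro g R k L _ _ t a z H ha hg
  refine ⟨E5.form_ne H.ind ha hg, fun l => ?_, fun w hw => ?_⟩
  · have h := H.ind.ne_zero (Fin.natAdd g l)
    rwa [Fin.append_right] at h
  intro c hc p hp
  by_contra hcon
  push Not at hcon
  have hrel : ∑ p, algebraMap ℂ L (c p) * form t a p = 0 := by
    rw [D6.sum_form, hc]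
    refine Finset.sum_eq_zero fun j _ => ?_
    rw [Pi.zero_apply, map_zero, zero_mul]
  have hp1 : algebraMap ℂ L (c p) * form t a p =
      -∑ p' ∈ Finset.univ.erase p, algebraMap ℂ L (c p') * form t a p' := by
    rw [← Finset.add_sum_erase _ _ (Finset.mem_univ p)] at hrel
    exact eq_neg_of_add_eq_zero_left hrel
  have hlt : ((M647.wt (wts w t a z) p : ℤ) : WithTop ℤ) < w (algebraMap ℂ L (c p) * form t a p) := by
    rw [hp1, w.map_neg]
    refine w.map_lt_sum' (WithTop.coe_lt_top _) fun p' hp' => ?_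
    by_cases h0 : c p' = 0
    · rw [h0, map_zero, zero_mul, w.map_zero]
      exact WithTop.coe_lt_top _
    · rw [w.map_mul, hw _ h0, zero_add, ← coe_ov w (E5.form_ne H.ind ha hg p'),
        ← D6.wt_eq w t a z]
      exact_mod_cast hcon p' (Finset.ne_of_mem_erase hp') h0
  rw [w.map_mul, hw _ hp, zero_add, ← coe_ov w (E5.form_ne H.ind ha hg p),
    ← D6.wt_eq w t a z] at hlt
  exact lt_irrefl _ hlt

end Vale.Agent.P283.N647
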