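import Vale.Agent.P283.N647.Props
import Vale.Agent.P283.M647.Final

/-!
Row E6: the log discrepancies at the lattice points.
-/

set_option linter.all false

namespace Vale.Agent.P283.N647

open scoped KaehlerDifferential
open Vale.Agent.P283.M647
open Vale.Agent.P283.A647 (IsRat)

namespace E6

/-- Dual derivations. -/
theorem exists_dual {L : Type} [Field L] [Algebra ℂ L] {d : ℕ} {y : Fin d → L}
    (h : IsTranscendenceBasis ℂ y) : ∃ D : Fin d → Derivation ℂ L L, Q.jac D y = 1 := by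
  classical
  obtain ⟨B, hB⟩ := exists_kaehler_basis y h
  refine ⟨fun i => (B.coord i).compDer (KaehlerDifferential.D ℂ L), ?_⟩
  have h1 : (Matrix.of fun i j => ((B.coord j).compDer (KaehlerDifferential.D ℂ L)) (y i)) =
      (1 : Matrix (Fin d) (Fin d) L) := by
    ext i j
    rw [Matrix.of_apply, Matrix.one_apply]
    show B.coord j (KaehlerDifferential.D ℂ L (y i)) = _
    rw [← hB, Module.Basis.coord_apply, Module.Basis.repr_self, Finsupp.single_apply]
  unfold Q.jac
  rw [h1, Matrix.det_one]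

variable {L : Type} [Field L] [Algebra ℂ L] {g R k : ℕ}

/-- The coordinates generate their field. -/
theorem isRat {d : ℕ} (y : Fin d → L) (h : AlgebraicIndependent ℂ y)
    (y₀ : Fin d → IntermediateField.adjoin ℂ (Set.range y)) (hy : ∀ i, (y₀ i : L) = y i) :
    IsRat y₀ where
  gen := by
    apply IntermediateField.map_injective (IntermediateField.adjoin ℂ (Set.range y)).val
    rw [IntermediateField.adjoin_map]
    have h1 : (IntermediateField.adjoin ℂ (Set.range y)).val '' Set.range y₀ = Set.range y := by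
      rw [← Set.range_comp]
      congr 1
      funext i
      exact hy i
    rw [h1, ← AlgHom.fieldRange_eq_map, IntermediateField.fieldRange_val]
  ind := by
    apply AlgebraicIndependent.of_comp (IntermediateField.adjoin ℂ (Set.range y)).val
    convert h using 1
    funext i
    exact hy i

theorem form_map {F : Type} [Field F] [Algebra ℂ F] [Algebra F L] [IsScalarTower ℂ F L]
    (t₀ : Fin g → F) (a : Fin R → Fin (g + 1) → ℂ) (p : Option (Fin R)) :
    form (fun i => algebraMap F L (t₀ i)) a p = algebraMap F L (form t₀ a p) := by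
  unfold form
  rw [map_sum]
  refine Finset.sum_congr rfl fun j _ => ?_
  rw [map_mul, ← IsScalarTower.algebraMap_apply ℂ F L]
  congr 1
  refine Fin.cases ?_ (fun i => ?_) j
  · rw [Fin.cons_zero, Fin.cons_zero, map_one]
  · rw [Fin.cons_succ, Fin.cons_succ]

theorem coord_map {F : Type} [Field F] [Algebra ℂ F] [Algebra F L] [IsScalarTower ℂ F L]
    (t₀ : Fin g → F) (a : Fin R → Fin (g + 1) → ℂ) (z₀ : Fin k → F) (x : Fin R ⊕ Fin k) :
    coord (fun i => algebraMap F L (t₀ i)) a (fun i => algebraMap F L (z₀ i)) x =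
      algebraMap F L (coord t₀ a z₀ x) := by
  cases x with
  | inl i => exact form_map t₀ a (some i)
  | inr l => rfl

theorem append_map {F : Type} [Field F] [Algebra F L] (t₀ : Fin g → F) (z₀ : Fin k → F) :
    Fin.append (fun i => algebraMap F L (t₀ i)) (fun i => algebraMap F L (z₀ i)) =
      fun i => algebraMap F L (Fin.append t₀ z₀ i) := by
  funext i
  refine Fin.addCases (fun i => ?_) (fun i => ?_) i
  · rw [Fin.append_left, Fin.append_left]
  · rw [Fin.append_right, Fin.append_right]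

/-- The proof with a field `F` of coordinates. -/
theorem main (hEB : ExtBasics) (hOS : OrdScale) (hRL : RamLe) {N M r J : ℕ}
    {F : Type} [Field F] [Algebra ℂ F] [Algebra F L] [IsScalarTower ℂ F L]
    [FiniteDimensional F L] (hJ : Module.finrank F L ≤ J)
    (t₀ : Fin g → F) (a : Fin R → Fin (g + 1) → ℂ) (z₀ : Fin k → F) (hg : 0 < g)
    (H₀ : IsRat (Fin.append t₀ z₀))
    (H : IsFin (fun i => algebraMap F L (Fin.append t₀ z₀ i))) (harr : IsArr a)
    (v : Fin N → Fin R ⊕ Fin k → ℤ) (E : Fin (M + 1) → Fin R ⊕ Fin k → ℤ) (ε : ℝ)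
    (hε : 0 < ε) (hr : 0 < r) (D' : Fin (g + k) → Derivation ℂ L L) (h : L)
    (hjac : h * Q.jac D' (fun i => algebraMap F L (Fin.append t₀ z₀ i)) = 1)
    (hlc : LcB v (fun i => algebraMap F L (t₀ i)) a (fun i => algebraMap F L (z₀ i)) D' h r E ε) :
    LcPt a (ε / J) r v E := by
  classical
  have hd : 0 < g + k := by omega
  have hJ0 : 0 < J := lt_of_lt_of_le Module.finrank_pos hJ
  have hJR : (0 : ℝ) < J := by exact_mod_cast hJ0
  obtain ⟨hess, htr, -⟩ := hEB (g + k) L _ H
  have htr₀ := A647.B8.trdeg H₀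
  haveI := hess
  haveI := (A647.B8.coords H₀).essFiniteType
  haveI : CharZero F := charZero_of_injective_algebraMap (algebraMap ℂ F).injective
  haveI : Algebra.IsAlgebraic F L := Algebra.IsAlgebraic.of_finite F L
  -- the forms
  have hTB : IsTranscendenceBasis ℂ (Fin.append t₀ z₀) :=
    (A647.B8.coords H₀).isTranscendenceBasis
  obtain ⟨D₀, hD₀⟩ := exists_dual hTB
  obtain ⟨D₀', hD₀'⟩ := H647.exists_ext (K := F) (L := L) htr D₀
  have hj₀ : ∃ f, Q.jac D₀ f ≠ 0 := ⟨_, by rw [hD₀]; exact one_ne_zero⟩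
  have hj₁ : Q.jac D₀' (fun i => algebraMap F L (Fin.append t₀ z₀ i)) = 1 := by
    rw [H647.jac_map hD₀', hD₀, map_one]
  have hj' : ∃ f, Q.jac D' f ≠ 0 := ⟨_, right_ne_zero_of_mul_eq_one hjac⟩
  refine lcPoint g R k N M r F t₀ a z₀ hg H₀ harr v E (ε / J) (div_pos hε hJR) hr D₀ 1
    (by rw [hD₀, mul_one]) ?_
  intro w₀ m₀ hw₀ hcone₀ hm₀
  obtain ⟨w, e, he, hw1, hvw⟩ := exists_extension (L := L) w₀ hw₀.normalized
  have hw : Q.IsDivisorial (g + k) w :=
    divisorial_iff.2 (isDivisorial_of_ext (divisorial_iff.1 hw₀) hw1 hvw)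
  have heJ : e ≤ J := le_trans (hRL F L w₀ w e he hw1 hvw) hJ
  have hcne : ∀ x, coord t₀ a z₀ x ≠ 0 := coord_ne d6 H₀ harr hg
  have hwts : ∀ x, (e : ℤ) * wts w₀ t₀ a z₀ x =
      wts w (fun i => algebraMap F L (t₀ i)) a (fun i => algebraMap F L (z₀ i)) x := by
    intro x
    show (e : ℤ) * ov w₀ (coord t₀ a z₀ x) = ov w (coord _ a _ x)
    rw [coord_map, H647.ov_algebraMap hvw (hcne x)]
  have hcone : M647.InCone v
      (wts w (fun i => algebraMap F L (t₀ i)) a (fun i => algebraMap F L (z₀ i))) := by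
    obtain ⟨c, hc0, hc⟩ := hcone₀
    refine ⟨fun j => e * c j, fun j => mul_nonneg (by positivity) (hc0 j), fun x => ?_⟩
    rw [← hwts x]
    push_cast
    rw [hc x, Finset.mul_sum]
    exact Finset.sum_congr rfl fun j _ => by ring
  obtain ⟨m', hm'⟩ := H647.order_exists hd htr D' hj' hw
  obtain ⟨m₁, hm₁⟩ := H647.order_exists hd htr D₀' ⟨_, by rw [hj₁]; exact one_ne_zero⟩ hw
  have h1 := hlc w m' hw hcone hm'
  have h2 := H647.order_transfer hd htr₀ htr hj₀ hD₀' hw₀ hw1 he hvw hm₀ hm₁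
  have h3 := hOS (g + k) L _ H D₀' D' 1 h (by rw [hj₁, mul_one]) hjac w m₁ m' hm₁ hm'
  rw [ov_one, sub_zero] at h3
  have h4 : ordMono E (wts w (fun i => algebraMap F L (t₀ i)) a
      (fun i => algebraMap F L (z₀ i))) = e * ordMono E (wts w₀ t₀ a z₀) :=
    D9.ordMono_mul E _ _ e hwts
  rw [h4] at h1
  have h5 : (1 : ℝ) + m' - ov w h = e * (1 + m₀) := by
    have h6 : 1 + m' - ov w h = e * (1 + m₀) := by rw [← h2, h3]; ring
    exact_mod_cast h6
  rw [h5] at h1
  rw [ov_one]
  have h6 : ε ≤ e * (1 + (m₀ : ℝ) - (0 : ℤ) - (ordMono E (wts w₀ t₀ a z₀) : ℝ) / r) := by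
    refine le_trans h1 (le_of_eq ?_)
    push_cast
    ring
  have heR : (0 : ℝ) < e := by exact_mod_cast he
  have heJR : (e : ℝ) ≤ J := by exact_mod_cast heJ
  have h7 : 0 < (1 + (m₀ : ℝ) - (0 : ℤ) - (ordMono E (wts w₀ t₀ a z₀) : ℝ) / r) := by
    by_contra hcon
    push Not at hcon
    have := mul_nonpos_of_nonneg_of_nonpos heR.le hcon
    linarith
  rw [div_le_iff₀ hJR]
  calc ε ≤ _ := h6
    _ ≤ J * (1 + (m₀ : ℝ) - (0 : ℤ) - (ordMono E (wts w₀ t₀ a z₀) : ℝ) / r) :=
      mul_le_mul_of_nonneg_right heJR h7.le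
    _ = _ := by ring

end E6

theorem e6 : ExtBasics → OrdScale → RamLe → LcPointL := by
  intro hEB hOS hRL g R k N M r J L _ _ t a z hg H hJ harr v E ε hε hr D' h hjac hlc
  haveI := H.fin
  have ht : ∀ i, t i ∈ IntermediateField.adjoin ℂ (Set.range (Fin.append t z)) := fun i =>
    IntermediateField.subset_adjoin ℂ _ ⟨Fin.castAdd k i, Fin.append_left t z i⟩
  have hz : ∀ i, z i ∈ IntermediateField.adjoin ℂ (Set.range (Fin.append t z)) := fun i =>
    IntermediateField.subset_adjoin ℂ _ ⟨Fin.natAdd g i, Fin.append_right t z i⟩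
  have hy : ∀ i, ((Fin.append (fun i => ⟨t i, ht i⟩) (fun i => ⟨z i, hz i⟩) :
      Fin (g + k) → IntermediateField.adjoin ℂ (Set.range (Fin.append t z))) i : L) =
      Fin.append t z i := by
    intro i
    refine Fin.addCases (fun i => ?_) (fun i => ?_) i
    · rw [Fin.append_left, Fin.append_left]
    · rw [Fin.append_right, Fin.append_right]
  have hy' : (fun i => algebraMap (IntermediateField.adjoin ℂ (Set.range (Fin.append t z))) L
      (Fin.append (fun i => ⟨t i, ht i⟩) (fun i => ⟨z i, hz i⟩) i)) = Fin.append t z := by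
    funext i
    exact hy i
  have H₀ := E6.isRat (Fin.append t z) H.ind _ hy
  refine E6.main hEB hOS hRL hJ (fun i => ⟨t i, ht i⟩) a (fun i => ⟨z i, hz i⟩) hg H₀ ?_ harr v E
    ε hε hr D' h ?_ hlc
  · rw [hy']; exact H
  · rw [hy']; exact hjac

end Vale.Agent.P283.N647
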