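import Vale.Agent.P283.N647.Main
import Vale.Agent.P283.N647.E1
import Vale.Agent.P283.N647.E2
import Vale.Agent.P283.N647.E3
import Vale.Agent.P283.N647.E4
import Vale.Agent.P283.N647.E5
import Vale.Agent.P283.N647.E6
import Vale.Agent.P283.M647.Final

/-!
Bounded klt complements for pairs with a correspondence of bounded degree to a pair of arrangement
type: the proof.
-/

set_option linter.all false

namespace Vale.Agent.P283.N647

open Vale.Agent.P283.M647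

theorem final (g k J q : ℕ) (hg : 0 < g) (hq : 0 < q) (ε : ℝ) (hε : 0 < ε) :
    ∃ c₀ : ℕ, 0 < c₀ ∧ ∀ n : ℕ, 0 < n → c₀ ∣ n →
    ∀ (K L : Type) [Field K] [Field L] [Algebra ℂ K] [Algebra ℂ L] [Algebra K L]
      [IsScalarTower ℂ K L] (R M N : ℕ) (t : Fin g → L) (a : Fin R → Fin (g + 1) → ℂ)
      (z : Fin k → L) (v : Fin N → Fin R ⊕ Fin k → ℤ)
      (G : Subgroup (L ≃ₐ[ℂ] L)) (A : Subalgebra ℂ K), IsNCover J t a z v G A →
    ∀ D : Fin (g + k) → Derivation ℂ K K, (∃ z, Q.jac D z ≠ 0) →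
    ∀ (𝒞 : Set (Subalgebra ℂ K)) (B : ∀ C : Subalgebra ℂ K, Q.QDivisor C) (r : ℕ)
      (ψ : Subalgebra ℂ K → K), H207.IsPair D A 𝒞 B r ψ →
    ∀ (E : Fin (M + 1) → Fin R ⊕ Fin k → ℤ), IsGeneratedA t a z E D 𝒞 r ψ →
      IsSubdivision a v E →
      (∀ j, 0 ≤ toricDisc a r E (v j) ∧ toricDisc a r E (v j) ≤ 1 ∧
        ∃ z : ℤ, (q : ℚ) * toricDisc a r E (v j) = z) →
      (∀ C ∈ 𝒞, Q.IsEpsLC D (B C) ε) → H207.HasGlobalKltComplement D 𝒞 B n :=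
  core e1 bookExpos (e4 e1 e2) e5 (e6 e1 e2 e3) g k J q hg hq ε hε

/-- The same, with one constant for all `g + k = d`. -/
theorem final_dim (d J q : ℕ) (hq : 0 < q) (ε : ℝ) (hε : 0 < ε) :
    ∃ c₀ : ℕ, 0 < c₀ ∧ ∀ n : ℕ, 0 < n → c₀ ∣ n → ∀ g k : ℕ, 0 < g → g + k = d →
    ∀ (K L : Type) [Field K] [Field L] [Algebra ℂ K] [Algebra ℂ L] [Algebra K L]
      [IsScalarTower ℂ K L] (R M N : ℕ) (t : Fin g → L) (a : Fin R → Fin (g + 1) → ℂ)
      (z : Fin k → L) (v : Fin N → Fin R ⊕ Fin k → ℤ)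
      (G : Subgroup (L ≃ₐ[ℂ] L)) (A : Subalgebra ℂ K), IsNCover J t a z v G A →
    ∀ D : Fin (g + k) → Derivation ℂ K K, (∃ z, Q.jac D z ≠ 0) →
    ∀ (𝒞 : Set (Subalgebra ℂ K)) (B : ∀ C : Subalgebra ℂ K, Q.QDivisor C) (r : ℕ)
      (ψ : Subalgebra ℂ K → K), H207.IsPair D A 𝒞 B r ψ →
    ∀ (E : Fin (M + 1) → Fin R ⊕ Fin k → ℤ), IsGeneratedA t a z E D 𝒞 r ψ →
      IsSubdivision a v E →
      (∀ j, 0 ≤ toricDisc a r E (v j) ∧ toricDisc a r E (v j) ≤ 1 ∧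
        ∃ z : ℤ, (q : ℚ) * toricDisc a r E (v j) = z) →
      (∀ C ∈ 𝒞, Q.IsEpsLC D (B C) ε) → H207.HasGlobalKltComplement D 𝒞 B n := by
  choose c hc hc' using fun x : ℕ × ℕ => fun hx : 0 < x.1 => final x.1 x.2 J q hx hq ε hε
  let c₁ : ℕ × ℕ → ℕ := fun x => if hx : 0 < x.1 then c x hx else 1
  refine ⟨∏ x ∈ Finset.range (d + 1) ×ˢ Finset.range (d + 1), c₁ x, Finset.prod_pos fun x _ => ?_,
    ?_⟩
  · simp only [c₁]
    split_ifs with hx
    · exact hc x hx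
    · exact one_pos
  · intro n hn hdvd g k hg hgk
    refine hc' (g, k) hg n hn (dvd_trans ?_ hdvd)
    have h1 : c₁ (g, k) = c (g, k) hg := by simp only [c₁]; rw [dif_pos hg]
    rw [← h1]
    exact Finset.dvd_prod_of_mem c₁ (by
      rw [Finset.mem_product, Finset.mem_range, Finset.mem_range]
      constructor <;> simp only <;> omega)

end Vale.Agent.P283.N647
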