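import Vale.Agent.P283.N647.E1
import Vale.Agent.P283.M647.Final

/-!
The purely transcendental subextension.
-/

set_option linter.all false

namespace Vale.Agent.P283.N647.Low

open MvPolynomial
open Vale.Agent.P283.M647 Vale.Agent.P283.N647
open Vale.Agent.P283.A647 (IsRat)

variable {g R k : ℕ} {L : Type} [Field L] [Algebra ℂ L]

/-- The purely transcendental subextension. -/
noncomputable abbrev LL (t : Fin g → L) (z : Fin k → L) : IntermediateField ℂ L :=
  IntermediateField.adjoin ℂ (Set.range (Fin.append t z))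

theorem memt (t : Fin g → L) (z : Fin k → L) (i : Fin g) : t i ∈ LL t z :=
  IntermediateField.subset_adjoin _ _ ⟨Fin.castAdd k i, Fin.append_left t z i⟩

theorem memz (t : Fin g → L) (z : Fin k → L) (i : Fin k) : z i ∈ LL t z :=
  IntermediateField.subset_adjoin _ _ ⟨Fin.natAdd g i, Fin.append_right t z i⟩

noncomputable def t0 (t : Fin g → L) (z : Fin k → L) : Fin g → LL t z := fun i => ⟨t i, memt t z i⟩

noncomputable def z0 (t : Fin g → L) (z : Fin k → L) : Fin k → LL t z := fun i => ⟨z i, memz t z i⟩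

theorem append0 (t : Fin g → L) (z : Fin k → L) :
    (fun i => algebraMap (LL t z) L (Fin.append (t0 t z) (z0 t z) i)) = Fin.append t z := by
  funext i
  refine Fin.addCases (fun i => ?_) (fun i => ?_) i
  · rw [Fin.append_left, Fin.append_left]; rfl
  · rw [Fin.append_right, Fin.append_right]; rfl

theorem isRat0 {t : Fin g → L} {z : Fin k → L} (h : IsFin (Fin.append t z)) :
    IsRat (Fin.append (t0 t z) (z0 t z)) where
  ind := by
    have h1 := h.ind
    rw [← append0 t z] at h1
    exact AlgebraicIndependent.of_comp (IsScalarTower.toAlgHom ℂ (LL t z) L) h1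
  gen := by
    rw [eq_top_iff]
    intro x _
    obtain ⟨p, r, hpr⟩ := (IntermediateField.mem_adjoin_range_iff (F := ℂ)
      (Fin.append t z) (x : L)).1 x.2
    refine (IntermediateField.mem_adjoin_range_iff (F := ℂ) _ x).2 ⟨p, r, ?_⟩
    have h1 : ∀ q : MvPolynomial (Fin (g + k)) ℂ,
        algebraMap (LL t z) L (aeval (Fin.append (t0 t z) (z0 t z)) q) =
          aeval (Fin.append t z) q := by
      intro q
      rw [← append0 t z]
      exact (MvPolynomial.aeval_algebraMap_apply L (Fin.append (t0 t z) (z0 t z)) q).symm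
    apply (algebraMap (LL t z) L).injective
    rw [map_div₀, h1, h1]
    exact hpr

theorem form0 (t : Fin g → L) (z : Fin k → L) (a : Fin R → Fin (g + 1) → ℂ)
    (p : Option (Fin R)) : algebraMap (LL t z) L (form (t0 t z) a p) = form t a p := by
  unfold form
  rw [map_sum]
  refine Finset.sum_congr rfl fun j _ => ?_
  rw [map_mul]
  congr 1
  refine Fin.cases ?_ (fun j => ?_) j
  · simp
  · simp only [Fin.cons_succ]; rfl

theorem coord0 (t : Fin g → L) (z : Fin k → L) (a : Fin R → Fin (g + 1) → ℂ)
    (x : Fin R ⊕ Fin k) :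
    algebraMap (LL t z) L (coord (t0 t z) a (z0 t z) x) = coord t a z x := by
  rcases x with i | l
  · exact form0 t z a (some i)
  · rfl

/-- The order of an element of a subfield. -/
theorem ov_map {K L : Type} [Field K] [Field L] [Algebra K L] {v : AddValuation K (WithTop ℤ)}
    {w : AddValuation L (WithTop ℤ)} {e : ℕ} (hvw : ∀ x : K, w (algebraMap K L x) = e • v x)
    {x : K} (hx : x ≠ 0) : ov w (algebraMap K L x) = e * ov v x := by
  apply ov_eq_of
  rw [hvw, ← coe_ov v hx, ← WithTop.coe_nsmul, nsmul_eq_mul]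

theorem top_mul (a : Fin R → Fin (g + 1) → ℂ) (ha : IsArr a) (e : ℕ)
    (w w' : Option (Fin R) → ℤ) (h : ∀ p, w p = e * w' p) : top a w = e * top a w' := by
  haveI : Nonempty {e : Fin (g + 1) → Option (Fin R) // IsBas a e} := by
    obtain ⟨b, hb⟩ := ha.1
    exact ⟨⟨b, hb⟩⟩
  unfold top
  have h1 : ∀ b : {e : Fin (g + 1) → Option (Fin R) // IsBas a e},
      ∑ i, w (b.1 i) = e * ∑ i, w' (b.1 i) := fun b => by
    rw [Finset.mul_sum]
    exact Finset.sum_congr rfl fun i _ => h _
  simp only [h1]
  obtain ⟨b, hb⟩ := exists_eq_ciSup_of_finite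
    (f := fun b : {e : Fin (g + 1) → Option (Fin R) // IsBas a e} => ∑ i, w' (b.1 i))
  have hle := fun c => le_ciSup (Set.finite_range
    (fun b : {e : Fin (g + 1) → Option (Fin R) // IsBas a e} => ∑ i, w' (b.1 i))).bddAbove c
  apply le_antisymm
  · exact ciSup_le fun c => mul_le_mul_of_nonneg_left (hle c) (by positivity)
  · rw [← hb]
    exact le_ciSup (f := fun b : {e : Fin (g + 1) → Option (Fin R) // IsBas a e} =>
      (e : ℤ) * ∑ i, w' (b.1 i)) (Set.finite_range _).bddAbove b

theorem logDisc_mul (a : Fin R → Fin (g + 1) → ℂ) (ha : IsArr a) (e : ℕ)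
    (α α' : Fin R ⊕ Fin k → ℤ) (h : ∀ x, α x = e * α' x) :
    logDisc a α = e * logDisc a α' := by
  unfold logDisc
  rw [top_mul a ha e (M647.wt α) (M647.wt α') (fun p => ?_), mul_add, Finset.mul_sum]
  · congr 1
    exact Finset.sum_congr rfl fun l _ => h _
  · rcases p with _ | i
    · simp [M647.wt]
    · exact h _

end Vale.Agent.P283.N647.Low
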