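import Vale.Agent.P283.N647.Props
import Vale.Agent.P283.M647.Main

/-!
Bounded klt complements for pairs with a correspondence of bounded degree to a pair of arrangement
type.
-/

set_option linter.all false

namespace Vale.Agent.P283.N647

open MvPolynomial Finset
open Vale.Agent.P283.M647
open Vale.Agent.P283.H647 (order_exists order_unique order_transfer exists_ext
  isAlgebraic_of_fix ov_algebraMap order_regular)

theorem ov_comap' {L : Type} [Field L] [Algebra ℂ L] (w : AddValuation L (WithTop ℤ))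
    (τ : L ≃ₐ[ℂ] L) (a : L) : ov (w.comap (τ : L →+* L)) a = ov w (τ a) := rfl

section Weights

variable {L : Type} [Field L] [Algebra ℂ L] {g R k N : ℕ} {t : Fin g → L}
  {a : Fin R → Fin (g + 1) → ℂ} {z : Fin k → L}

theorem coord_ne (hWP : WtsTropL) (h : IsFin (Fin.append t z)) (ha : IsArr a) (hg : 0 < g)
    (x : Fin R ⊕ Fin k) : coord t a z x ≠ 0 := by
  rcases x with i | l
  · exact (hWP g R k L t a z h ha hg).1 (some i)
  · exact (hWP g R k L t a z h ha hg).2.1 l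

theorem ov_mono (hWP : WtsTropL) (h : IsFin (Fin.append t z)) (ha : IsArr a) (hg : 0 < g)
    (w : AddValuation L (WithTop ℤ)) (u : Fin R ⊕ Fin k → ℤ) :
    ov w (∏ l, coord t a z l ^ u l) = ∑ l, wts w t a z l * u l := by
  rw [ov_prod _ _ fun l _ => zpow_ne_zero _ (coord_ne hWP h ha hg l)]
  refine Finset.sum_congr rfl fun l _ => ?_
  rw [ov_zpow w (coord_ne hWP h ha hg l), mul_comm]; rfl

theorem mono_ne (hWP : WtsTropL) (h : IsFin (Fin.append t z)) (ha : IsArr a) (hg : 0 < g)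
    (u : Fin R ⊕ Fin k → ℤ) : (∏ l, coord t a z l ^ u l) ≠ 0 :=
  Finset.prod_ne_zero_iff.2 fun l _ => zpow_ne_zero _ (coord_ne hWP h ha hg l)

end Weights

namespace IsNCover

variable {J g R k N : ℕ} {K L : Type} [Field K] [Field L] [Algebra ℂ K] [Algebra ℂ L]
  [Algebra K L] {t : Fin g → L} {a : Fin R → Fin (g + 1) → ℂ} {z : Fin k → L}
  {v : Fin N → Fin R ⊕ Fin k → ℤ}
  {G : Subgroup (L ≃ₐ[ℂ] L)} {A : Subalgebra ℂ K} (H : IsNCover J t a z v G A)
include H

theorem rat : IsFin (Fin.append t z) := ⟨H.independent, H.finiteDim⟩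

theorem fixK {τ : L ≃ₐ[ℂ] L} (hτ : τ ∈ G) (g : K) : τ (algebraMap K L g) = algebraMap K L g :=
  (H.field _).1 ⟨g, rfl⟩ τ hτ

theorem inCone (hWP : WtsTropL) (hg0 : 0 < g) [IsScalarTower ℂ K L] {w : AddValuation L (WithTop ℤ)}
    (hA : ∀ b ∈ A, 0 ≤ w (algebraMap K L b)) : M647.InCone v (wts w t a z) := by
  apply cone_dual
  intro u hu
  have h1 := nonneg_of_integral hA (H.finiteCover u hu)
  rw [← coe_ov w (mono_ne hWP H.rat H.arr hg0 u), ov_mono hWP H.rat H.arr hg0] at h1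
  exact_mod_cast h1

theorem nonneg_A (hWP : WtsTropL) (hg0 : 0 < g) {w : AddValuation L (WithTop ℤ)}
    (hc : ∀ c : ℂ, c ≠ 0 → w (algebraMap ℂ L c) = 0) (hx : M647.InCone v (wts w t a z)) :
    ∀ b ∈ A, 0 ≤ w (algebraMap K L b) := by
  intro b hb
  have h1 := H.cover b hb
  refine nonneg_of_integral (K := L) (L := L) ?_ h1
  intro b hb
  show 0 ≤ w b
  induction hb using Algebra.adjoin_induction with
  | mem y hy =>
    obtain ⟨u, hu, rfl⟩ := hy
    rw [← coe_ov w (mono_ne hWP H.rat H.arr hg0 u), ov_mono hWP H.rat H.arr hg0]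
    have h3 := hx.pair hu
    exact_mod_cast h3
  | algebraMap c =>
    by_cases h0 : c = 0
    · rw [h0, map_zero, AddValuation.map_zero]; exact le_top
    · rw [hc c h0]
  | add x z _ _ hx hz => exact le_trans (le_min hx hz) (AddValuation.map_add w _ _)
  | mul x z _ _ hx hz => rw [AddValuation.map_mul]; exact add_nonneg hx hz

/-- The norm of a function. -/
theorem exists_norm (F : L) (hF0 : F ≠ 0) :
    ∃ φ : K, φ ≠ 0 ∧ ∀ (w : AddValuation L (WithTop ℤ)) (v : AddValuation K (WithTop ℤ)) (e : ℕ),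
      (∀ f : K, w (algebraMap K L f) = e • v f) →
      (∀ b : ℚ, (∀ τ ∈ G, b ≤ ov w (τ F)) → (J.factorial : ℚ) * b ≤ e * ov v φ) ∧
      (∀ b : ℚ, (∀ τ ∈ G, (ov w (τ F) : ℚ) < b) → (e : ℚ) * ov v φ < (J.factorial : ℚ) * b) := by
  classical
  haveI : Finite G := H.finite
  letI : Fintype G := Fintype.ofFinite _
  let P : L := ∏ τ : G, (τ : L ≃ₐ[ℂ] L) F
  have hP0 : P ≠ 0 := Finset.prod_ne_zero_iff.2 fun c _ => by
    simpa using hF0
  have hPinv : ∀ τ ∈ G, τ P = P := by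
    intro τ hτ
    simp only [P]
    rw [map_prod]
    exact Fintype.prod_equiv (Equiv.mulLeft (⟨τ, hτ⟩ : G)) _ _ fun c => rfl
  set j : ℕ := Nat.card G with hj
  have hj0 : 0 < j := Nat.card_pos
  have hjJ : j ≤ J := H.card
  obtain ⟨M, hM⟩ : j ∣ J.factorial := Nat.dvd_factorial hj0 hjJ
  have hM0 : 0 < M := by
    rcases Nat.eq_zero_or_pos M with h | h
    · rw [h, mul_zero] at hM
      exact absurd hM (Nat.factorial_ne_zero J)
    · exact h
  obtain ⟨φ, hφ⟩ := (H.field (P ^ M)).2 fun τ hτ => by rw [map_pow, hPinv τ hτ]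
  have hφ0 : φ ≠ 0 := by
    rintro rfl
    rw [map_zero] at hφ
    exact pow_ne_zero M hP0 hφ.symm
  refine ⟨φ, hφ0, ?_⟩
  intro w v e hvw
  have key : (e : ℚ) * ov v φ = M * ∑ c : G, (ov w ((c : L ≃ₐ[ℂ] L) F) : ℚ) := by
    have h1 := hvw φ
    have h2 : ov w (algebraMap K L φ) = e * ov v φ := by
      apply ov_eq_of
      rw [h1, ← coe_ov v hφ0, ← WithTop.coe_nsmul]
      simp
    have h3 : (e : ℤ) * ov v φ = M * ∑ c : G, ov w ((c : L ≃ₐ[ℂ] L) F) := by
      rw [← h2, hφ, ov_pow w hP0]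
      congr 1
      exact ov_prod _ _ fun c _ => by simpa using hF0
    exact_mod_cast h3
  have hcard : (Fintype.card G : ℚ) = j := by
    rw [hj, Nat.card_eq_fintype_card]
  have hMJ : (J.factorial : ℚ) = M * j := by
    rw [hM]; push_cast; ring
  constructor
  · intro b hb
    rw [key, hMJ, mul_assoc]
    apply mul_le_mul_of_nonneg_left _ (by positivity)
    rw [← hcard]
    have := Finset.card_nsmul_le_sum (Finset.univ : Finset G)
      (fun c => (ov w ((c : L ≃ₐ[ℂ] L) F) : ℚ)) b fun c _ => hb _ c.2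
    simpa using this
  · intro b hb
    rw [key, hMJ, mul_assoc]
    apply mul_lt_mul_of_pos_left _ (by exact_mod_cast hM0)
    rw [← hcard]
    haveI : Nonempty G := ⟨1⟩
    have := Finset.sum_lt_sum_of_nonempty (s := (Finset.univ : Finset G))
      (f := fun c : G => (ov w ((c : L ≃ₐ[ℂ] L) F) : ℚ)) (g := fun _ => b) Finset.univ_nonempty
      fun c _ => hb _ c.2
    simpa using this

end IsNCover

section Pair

variable {J g R k N M : ℕ} {K L : Type} [Field K] [Field L] [Algebra ℂ K] [Algebra ℂ L]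
  [Algebra K L] [IsScalarTower ℂ K L] {t : Fin g → L} {a : Fin R → Fin (g + 1) → ℂ}
  {z : Fin k → L} {v : Fin N → Fin R ⊕ Fin k → ℤ}
  {G : Subgroup (L ≃ₐ[ℂ] L)} {A : Subalgebra ℂ K} (H : IsNCover J t a z v G A)
  {D : Fin (g + k) → Derivation ℂ K K} {D' : Fin (g + k) → Derivation ℂ L L}
  (hD' : ∀ (i : Fin (g + k)) (x : K), D' i (algebraMap K L x) = algebraMap K L (D i x))
  {h : L} (hh : h * Q.jac D' (Fin.append t z) = 1)
  {𝒞 : Set (Subalgebra ℂ K)} {B : ∀ C : Subalgebra ℂ K, Q.QDivisor C} {r : ℕ}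
  {ψ : Subalgebra ℂ K → K} (hP : H207.IsPair D A 𝒞 B r ψ)
  {E : Fin (M + 1) → Fin R ⊕ Fin k → ℤ}
  (hgen : IsGeneratedA t a z E D 𝒞 r ψ)
include H hD' hh hP hgen

omit hP in
theorem gen_value (hWP : WtsTropL) (hg0 : 0 < g) {C : Subalgebra ℂ K} (hC : C ∈ 𝒞) {u : AddValuation K (WithTop ℤ)}
    (hu : Q.IsDivisorial (g + k) u) (hover : Q.IsOver C u) {w : AddValuation L (WithTop ℤ)} {e : ℕ}
    (he : 0 < e) (hw1 : ∃ z, w z = 1) (huw : ∀ z : K, w (algebraMap K L z) = e • u z)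
    (hψ : ψ C ≠ 0) : (e : ℤ) * ov u (ψ C) = r * ov w h + ordMono E (wts w t a z) :=
  hgen D' h hD' hh C hC u w e _ _ _ hu hover he hw1 huw (coe_ov u hψ).symm
    (coe_ov w (left_ne_zero_of_mul_eq_one hh)).symm
    (fun x => (coe_ov w (coord_ne hWP H.rat H.arr hg0 x)).symm)

theorem lcB (hEB : ExtBasics) (hWP : WtsTropL) (hg0 : 0 < g) (hg : 0 < g + k) (hD : ∃ z, Q.jac D z ≠ 0) {ε : ℝ} (hε : 0 < ε)
    (hlc : ∀ C ∈ 𝒞, Q.IsEpsLC D (B C) ε) : LcB v t a z D' h r E ε := by
  intro w m' hw hcone hm'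
  obtain ⟨hess, htrL, hjac⟩ := hEB (g + k) L _ H.rat
  haveI := H.finite
  haveI hal : Algebra.IsAlgebraic K L := isAlgebraic_of_fix H.finite H.field
  haveI := hess
  haveI : Algebra.EssFiniteType ℂ K := essFiniteType_sub (L := L)
  have htrK : Algebra.trdeg ℂ K = (g + k : ℕ) := by rw [gen_trdeg hal, htrL]
  obtain ⟨u, e, he, hu', huw⟩ := exists_restriction (K := K) (g + k) w (divisorial_iff.1 hw)
  have hu : Q.IsDivisorial (g + k) u := divisorial_iff.2 hu'
  obtain ⟨m, hm⟩ := order_exists hg htrK D hD hu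
  have htr := order_transfer hg htrK htrL hD hD' hu hw.normalized he huw hm hm'
  have hover : Q.IsOver A u := by
    intro a
    have h1 := H.nonneg_A hWP hg0 hw.const hcone a a.2
    rw [huw] at h1
    by_contra hneg
    push Not at hneg
    have h2 : (a : K) ≠ 0 := by
      intro h0
      rw [h0, AddValuation.map_zero] at hneg
      exact absurd hneg (by simp)
    rw [← coe_ov u h2] at h1 hneg
    rw [← WithTop.coe_nsmul] at h1
    have h3 : 0 ≤ e • ov u (a : K) := by exact_mod_cast h1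
    have h4 : ov u (a : K) < 0 := by exact_mod_cast hneg
    rw [nsmul_eq_mul] at h3
    have h5 : (0 : ℤ) < e := by exact_mod_cast he
    have := mul_neg_of_pos_of_neg h5 h4
    omega
  obtain ⟨C, hC, hoverC⟩ := hP.proper u hu hover
  have hcart := hP.cartier C hC
  have hr : 0 < r := hcart.1
  have hψ : ψ C ≠ 0 := hcart.2.1
  have h1 := (hlc C hC).2 u (centreIdeal C u hoverC) r (ψ C) m (ov u (ψ C)) hu hoverC
    (fun _ => Iff.rfl) ⟨hr, hψ, fun u' p m k h1 _ h3 h4 => hcart.2.2 u' p m k h1 le_top h3 h4⟩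
    hm (coe_ov u hψ).symm
  have h2 := gen_value H hD' hh hgen hWP hg0 hC hu hoverC he hw.normalized huw hψ
  have heR : (1 : ℝ) ≤ e := by exact_mod_cast he
  have hrR : (0 : ℝ) < r := by exact_mod_cast hr
  have h3 : (e : ℝ) * ov u (ψ C) = r * ov w h + ordMono E (wts w t a z) := by
    exact_mod_cast h2
  have h4 : (1 : ℝ) + m' = e * (1 + m) := by exact_mod_cast htr
  have h5 : (e : ℝ) * ε ≤ e * (1 + (m : ℝ) - (ov u (ψ C) : ℝ) / r) :=
    mul_le_mul_of_nonneg_left h1 (by linarith)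
  have h6 : (e : ℝ) * (1 + (m : ℝ) - (ov u (ψ C) : ℝ) / r) =
      1 + m' - ov w h - (ordMono E (wts w t a z) : ℝ) / r := by
    have h7 : (e : ℝ) * ((ov u (ψ C) : ℝ) / r) =
        ov w h + (ordMono E (wts w t a z) : ℝ) / r := by
      rw [← mul_div_assoc, h3]
      field_simp
    rw [mul_sub, h7, ← h4]; ring
  rw [h6] at h5
  have h7 : ε ≤ e * ε := by nlinarith
  linarith

end Pair

theorem core (hEB : ExtBasics) (hBE : BookExpos) (hGF : GenericL) (hWP : WtsTropL) (hLP : LcPointL)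
    (g k J q : ℕ) (hg0 : 0 < g) (hq : 0 < q) (ε : ℝ) (hε : 0 < ε) :
    ∃ c₀ : ℕ, 0 < c₀ ∧ ∀ n : ℕ, 0 < n → c₀ ∣ n →
    ∀ (K L : Type) [Field K] [Field L] [Algebra ℂ K] [Algebra ℂ L] [Algebra K L]
      [IsScalarTower ℂ K L] (R M N : ℕ) (t : Fin g → L) (a : Fin R → Fin (g + 1) → ℂ)
      (z : Fin k → L) (v : Fin N → Fin R ⊕ Fin k → ℤ)
      (G : Subgroup (L ≃ₐ[ℂ] L)) (A : Subalgebra ℂ K), IsNCover J t a z v G A →
    ∀ D : Fin (g + k) → Derivation ℂ K K, (∃ z, Q.jac D z ≠ 0) →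
    ∀ (𝒞 : Set (Subalgebra ℂ K)) (B : ∀ C : Subalgebra ℂ K, Q.QDivisor C) (r : ℕ)
      (ψ : Subalgebra ℂ K → K), H207.IsPair D A 𝒞 B r ψ →
    ∀ (E : Fin (M + 1) → Fin R ⊕ Fin k → ℤ), IsGeneratedA t a z E D 𝒞 r ψ →
      IsSubdivision a v E →
      (∀ j, 0 ≤ toricDisc a r E (v j) ∧ toricDisc a r E (v j) ≤ 1 ∧
        ∃ z : ℤ, (q : ℚ) * toricDisc a r E (v j) = z) →
      (∀ C ∈ 𝒞, Q.IsEpsLC D (B C) ε) → H207.HasGlobalKltComplement D 𝒞 B n := by
  classical
  have hg : 0 < g + k := by omega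
  have hεJ : (0 : ℝ) < ε / (J + 1 : ℕ) := by positivity
  obtain ⟨k₀, hk₀, hmain⟩ := hBE g k q (ε / (J + 1 : ℕ)) hg0 hq hεJ
  have hJ : 0 < J.factorial := J.factorial_pos
  refine ⟨2 * k₀ * q * J.factorial, by positivity, ?_⟩
  rintro n hn ⟨t₀, rfl⟩ K L _ _ _ _ _ _ R M N t a z v G A H D hD 𝒞 B r ψ hP E hgen hsub hdisc hlc
  have ht : 0 < t₀ := by
    rcases Nat.eq_zero_or_pos t₀ with h | h
    · rw [h, mul_zero] at hn
      exact absurd hn (lt_irrefl 0)
    · exact h
  set κ' : ℕ := 2 * k₀ * t₀ with hκ'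
  have hk0 : 0 < κ' := by positivity
  have hk2 : 2 ≤ κ' := by
    have : 1 ≤ k₀ * t₀ := Nat.mul_pos hk₀ ht
    have h2 : κ' = 2 * (k₀ * t₀) := by rw [hκ']; ring
    omega
  have hkd : k₀ ∣ κ' := ⟨2 * t₀, by rw [hκ']; ring⟩
  have hnn : 2 * k₀ * q * J.factorial * t₀ = κ' * q * J.factorial := by rw [hκ']; ring
  rw [hnn]
  clear_value κ'
  have hqQ : (0 : ℚ) < q := by exact_mod_cast hq
  have hκex : ∀ j, ∃ κ : ℕ, (κ : ℚ) = q * toricDisc a r E (v j) ∧ κ ≤ q := by
    intro j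
    obtain ⟨h1, h2, z, hz⟩ := hdisc j
    have hz0 : 0 ≤ z := by
      have h3 : (0 : ℚ) ≤ z := by rw [← hz]; exact mul_nonneg hqQ.le h1
      exact_mod_cast h3
    refine ⟨z.toNat, ?_, ?_⟩
    · rw [hz]
      have : ((z.toNat : ℤ) : ℚ) = z := by rw [Int.toNat_of_nonneg hz0]
      rw [← this, Int.cast_natCast]
    · have h3 : (z : ℚ) ≤ q := by
        rw [← hz]
        calc (q : ℚ) * toricDisc a r E (v j) ≤ q * 1 := mul_le_mul_of_nonneg_left h2 hqQ.le
          _ = q := mul_one _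
      have h4 : z ≤ q := by exact_mod_cast h3
      omega
  choose κ hκ hκq using hκex
  -- the form upstairs
  obtain ⟨hess, htrL, hjac⟩ := hEB (g + k) L _ H.rat
  haveI := H.finite
  haveI hal : Algebra.IsAlgebraic K L := isAlgebraic_of_fix H.finite H.field
  haveI := hess
  haveI : Algebra.EssFiniteType ℂ K := essFiniteType_sub (L := L)
  haveI : Algebra.EssFiniteType K L := Algebra.EssFiniteType.of_comp ℂ K L
  haveI : FiniteDimensional K L := Algebra.finite_of_essFiniteType_of_isAlgebraic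
  haveI : CharZero K := charZero_of_injective_algebraMap (algebraMap ℂ K).injective
  have htrK : Algebra.trdeg ℂ K = (g + k : ℕ) := by rw [gen_trdeg hal, htrL]
  obtain ⟨D', hD'⟩ := exists_ext (K := K) (L := L) htrL D
  have hj : ∃ g, Q.jac D' g ≠ 0 := by
    obtain ⟨g, hg⟩ := hD
    exact ⟨_, by rw [H647.jac_map hD']; exact (map_ne_zero _).2 hg⟩
  have hj0 : Q.jac D' (Fin.append t z) ≠ 0 := hjac D' hj
  obtain ⟨h, hh⟩ : ∃ h : L, h * Q.jac D' (Fin.append t z) = 1 := ⟨_, inv_mul_cancel₀ hj0⟩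
  have hh0 : h ≠ 0 := left_ne_zero_of_mul_eq_one hh
  by_cases hne : 𝒞.Nonempty
  swap
  · refine ⟨1, one_ne_zero, fun C hC => absurd ⟨C, hC⟩ hne⟩
  obtain ⟨C₀, hC₀⟩ := hne
  have hr : 0 < r := (hP.cartier C₀ hC₀).1
  have hrQ : (0 : ℚ) < r := by exact_mod_cast hr
  have hlcB := lcB H hD' hh hP hgen hEB hWP hg0 hg hD hε hlc
  have hlcP := hLP g R k N M r (J + 1) L t a z hg0 H.rat
    (le_trans H.degree (Nat.le_succ J)) H.arr v E ε hε hr D' h hh hlcB
  obtain ⟨Ee, hEe, hE1, hE2⟩ := hmain R N M r a v E κ H.arr hr H.rays hκ hκq hlcP hsub κ' hkd hk0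
  obtain ⟨F, hF0, hF1, hF2⟩ := hGF g R k L t a z hg0 H.rat H.arr Ee hEe
  have hφ₀ : h ^ (κ' * q) * F ≠ 0 := mul_ne_zero (pow_ne_zero _ hh0) hF0
  have hov : ∀ w : AddValuation L (WithTop ℤ),
      ov w (h ^ (κ' * q) * F) = κ' * q * ov w h + ov w F := by
    intro w
    rw [ov_mul w (pow_ne_zero _ hh0) hF0, ov_pow w hh0]
    push_cast; ring
  obtain ⟨φ, hφ0, hφ⟩ := H.exists_norm (h ^ (κ' * q) * F) hφ₀
  have hnQ : (0 : ℚ) < ((κ' * q * J.factorial : ℕ) : ℚ) := by
    have : 0 < κ' * q * J.factorial := by positivity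
    exact_mod_cast this
  refine ⟨φ, hφ0, ?_⟩
  intro C hC
  have hψ : ψ C ≠ 0 := (hP.cartier C hC).2.1
  constructor
  · intro u p m k' hup hm hk'
    have hu := hup.1
    have hoverC := hup.2.1
    obtain ⟨w, e₁, he₁, hw1, hvw⟩ := exists_extension (L := L) u hu.normalized
    have he₁Q : (0 : ℚ) < e₁ := by exact_mod_cast he₁
    have hloc := (hP.cartier C hC).2.2 u p m (ov u (ψ C)) hup le_top hm (coe_ov u hψ).symm
    have h1 := (hφ w u e₁ hvw).1 ((κ' : ℚ) * q * (e₁ * ov u (ψ C) / r)) (by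
      intro τ hτ
      have hvw' : ∀ g : K, (w.comap (τ : L →+* L)) (algebraMap K L g) = e₁ • u g := by
        intro g
        rw [comap_apply', H.fixK hτ, hvw]
      have hw1' := comap_normalized hw1 τ
      have hw' : Q.IsDivisorial (g + k) (w.comap (τ : L →+* L)) :=
        divisorial_iff.2 (isDivisorial_of_ext (divisorial_iff.1 hu) hw1' hvw')
      have hcone : M647.InCone v (wts (w.comap (τ : L →+* L)) t a z) := by
        apply H.inCone hWP hg0
        intro b hb
        rw [hvw']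
        exact nsmul_nonneg (hoverC ⟨b, hP.le C hC hb⟩) _
      have hpage := (hWP g R k L t a z H.rat H.arr hg0).2.2 _ hw'.const
      rw [← ov_comap' w τ, hov]
      have h3 := gen_value H hD' hh hgen hWP hg0 hC hu hoverC he₁ hw1' hvw' hψ
      have h3Q : (e₁ : ℚ) * ov u (ψ C) = r * ov (w.comap (τ : L →+* L)) h +
          ordMono E (wts (w.comap (τ : L →+* L)) t a z) := by exact_mod_cast h3
      rw [h3Q]
      have h4 := hF1 (w.comap (τ : L →+* L)) hw'.const
        ⌈(κ' : ℚ) * q * ((ordMono E (wts (w.comap (τ : L →+* L)) t a z) : ℚ) / r)⌉ (by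
        intro γ hγ
        rw [Int.ceil_le]
        exact hE1 γ hγ _ hpage hcone)
      have h5 : (κ' : ℚ) * q * ((ordMono E (wts (w.comap (τ : L →+* L)) t a z) : ℚ) / r) ≤
          ov (w.comap (τ : L →+* L)) F := le_trans (Int.le_ceil _) (by exact_mod_cast h4)
      push_cast
      have h6 : (κ' : ℚ) * q * ((r * ov (w.comap (τ : L →+* L)) h +
          ordMono E (wts (w.comap (τ : L →+* L)) t a z)) / r) =
          κ' * q * ov (w.comap (τ : L →+* L)) h +
          κ' * q * ((ordMono E (wts (w.comap (τ : L →+* L)) t a z) : ℚ) / r) := by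
        field_simp
      rw [h6]
      linarith)
    have h2 : ov u φ = k' := ov_eq_of u hk'
    rw [h2] at h1
    have h3 : (ov u (ψ C) : ℚ) / r ≤ (k' : ℚ) / ((κ' * q * J.factorial : ℕ) : ℚ) := by
      rw [div_le_div_iff₀ hrQ hnQ]
      have h4 : (J.factorial : ℚ) * ((κ' : ℚ) * q * (e₁ * ov u (ψ C) / r)) * r =
          e₁ * (ov u (ψ C) * ((κ' * q * J.factorial : ℕ) : ℚ)) := by
        push_cast
        field_simp
      have h5 := mul_le_mul_of_nonneg_right h1 hrQ.le
      rw [h4] at h5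
      have h6 : (e₁ : ℚ) * (ov u (ψ C) * ((κ' * q * J.factorial : ℕ) : ℚ)) ≤ e₁ * (k' * r) := by
        linarith
      exact le_of_mul_le_mul_left h6 he₁Q
    have h4 : (ov u (ψ C) : ℚ) / r = m + (B C).coeff p := by
      rw [hloc]; field_simp
    rw [h4] at h3
    have h5 := hP.effective C hC p
    constructor <;> linarith
  · intro u m k' hu hoverC hm hk'
    obtain ⟨w, e₁, he₁, hw1, hvw⟩ := exists_extension (L := L) u hu.normalized
    have he₁Q : (0 : ℚ) < e₁ := by exact_mod_cast he₁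
    have h1 := (hφ w u e₁ hvw).2 ((κ' : ℚ) * q * (e₁ * (1 + m))) (by
      intro τ hτ
      have hvw' : ∀ g : K, (w.comap (τ : L →+* L)) (algebraMap K L g) = e₁ • u g := by
        intro g
        rw [comap_apply', H.fixK hτ, hvw]
      have hw1' := comap_normalized hw1 τ
      have hw' : Q.IsDivisorial (g + k) (w.comap (τ : L →+* L)) :=
        divisorial_iff.2 (isDivisorial_of_ext (divisorial_iff.1 hu) hw1' hvw')
      obtain ⟨m', hm'⟩ := order_exists hg htrL D' hj hw'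
      have htr := order_transfer hg htrK htrL hD hD' hu hw1' he₁ hvw' hm hm'
      have hcone : M647.InCone v (wts (w.comap (τ : L →+* L)) t a z) := by
        apply H.inCone hWP hg0
        intro b hb
        rw [hvw']
        exact nsmul_nonneg (hoverC ⟨b, hP.le C hC hb⟩) _
      have hpage := (hWP g R k L t a z H.rat H.arr hg0).2.2 _ hw'.const
      rw [← ov_comap' w τ, hov]
      set w' := w.comap (τ : L →+* L) with hw'def
      obtain ⟨γ₀, hγ₀, hmin⟩ := Finset.exists_min_image Ee (fun γ => ∑ x, γ x * wts w' t a z x) hEe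
      have h2 := hF2 w' hw' D' h hh m' hm' γ₀ hγ₀ hmin
      have h3 := hF1 w' hw'.const _ hmin
      have h4 : ((κ' * q * ov w' h + ov w' F : ℤ)) < κ' * q * (1 + m') := by
        have hKq : (2 : ℤ) ≤ κ' * q := by
          have : 2 * 1 ≤ κ' * q := Nat.mul_le_mul hk2 hq
          exact_mod_cast this
        by_cases h0 : wts w' t a z = 0
        · have h5 : ∑ x, γ₀ x * wts w' t a z x = 0 := by rw [h0]; simp
          have h6 : logDisc a (wts w' t a z) = 0 := by
            rw [h0]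
            have h8 : M647.wt (0 : Fin R ⊕ Fin k → ℤ) = 0 := by
              funext p; cases p <;> rfl
            obtain ⟨e, he⟩ := H.arr.1
            haveI : Nonempty {e : Fin (g + 1) → Option (Fin R) // IsBas a e} := ⟨⟨e, he⟩⟩
            simp [logDisc, h8, top]
          rw [h5, h6] at h2
          have h7 := hlcB w' m' hw' hcone hm'
          have h8 : ordMono E (wts w' t a z) = 0 := by
            rw [h0]; simp [ordMono]
          rw [h8] at h7
          have h9 : (0 : ℝ) < 1 + m' - ov w' h := by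
            have h10 : ((0 : ℤ) : ℝ) / r = 0 := by simp
            rw [h10] at h7
            linarith
          have h10 : 0 < 1 + m' - ov w' h := by exact_mod_cast h9
          nlinarith
        · obtain ⟨γ, hγ, hlt⟩ := hE2 _ hpage hcone h0
          have h5 := hmin γ hγ
          nlinarith
      have h5 : ((κ' * q * ov w' h + ov w' F : ℤ) : ℚ) < ((κ' * q * (1 + m') : ℤ) : ℚ) := by
        exact_mod_cast h4
      refine lt_of_lt_of_eq h5 ?_
      rw [htr]
      push_cast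
      ring)
    have h2 : ov u φ = k' := ov_eq_of u hk'
    rw [h2] at h1
    have h3 : (e₁ : ℚ) * k' < e₁ * (((κ' * q * J.factorial : ℕ) : ℚ) * (1 + m)) := by
      push_cast
      calc (e₁ : ℚ) * k' < _ := h1
        _ = _ := by ring
    have h4 := lt_of_mul_lt_mul_left h3 he₁Q.le
    have h6 : (k' : ℚ) / ((κ' * q * J.factorial : ℕ) : ℚ) < 1 + m := by
      rw [div_lt_iff₀ hnQ, mul_comm]; exact h4
    linarith

end Vale.Agent.P283.N647
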