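import Vale.Agent.P283.N647.Defs
import Vale.Agent.P283.M647.Props

/-!
Statements of the parts of the proof.
-/

set_option linter.all false

namespace Vale.Agent.P283.N647

open Vale.Agent.P283.M647

/-- `L` is a finite extension of `ℂ(y_1, …, y_d)`. -/
structure IsFin {L : Type} [Field L] [Algebra ℂ L] {d : ℕ} (y : Fin d → L) : Prop where
  ind : AlgebraicIndependent ℂ y
  fin : FiniteDimensional (IntermediateField.adjoin ℂ (Set.range y)) L

/-- E1. Finiteness, transcendence degree and Jacobian determinants. -/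
def ExtBasics : Prop := ∀ (d : ℕ) (L : Type) [Field L] [Algebra ℂ L] (y : Fin d → L), IsFin y →
  Algebra.EssFiniteType ℂ L ∧ Algebra.trdeg ℂ L = (d : ℕ) ∧
  ∀ D' : Fin d → Derivation ℂ L L, (∃ f, Q.jac D' f ≠ 0) → Q.jac D' y ≠ 0

/-- E2. Two families of derivations: the orders of the forms. -/
def OrdScale : Prop := ∀ (d : ℕ) (L : Type) [Field L] [Algebra ℂ L] (y : Fin d → L), IsFin y →
  ∀ (D₁ D₂ : Fin d → Derivation ℂ L L) (h₁ h₂ : L), h₁ * Q.jac D₁ y = 1 → h₂ * Q.jac D₂ y = 1 →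
  ∀ (w : AddValuation L (WithTop ℤ)) (m₁ m₂ : ℤ), Q.FormOrder w D₁ m₁ → Q.FormOrder w D₂ m₂ →
  m₁ - ov w h₁ = m₂ - ov w h₂

/-- E3. The ramification index is at most the degree. -/
def RamLe : Prop := ∀ (K L : Type) [Field K] [Field L] [Algebra K L] [FiniteDimensional K L]
  (v : AddValuation K (WithTop ℤ)) (w : AddValuation L (WithTop ℤ)) (e : ℕ), 0 < e →
  (∃ x, w x = 1) → (∀ x : K, w (algebraMap K L x) = e • v x) → e ≤ Module.finrank K L

/-- E4. Generic functions with given exponents. -/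
def GenericL : Prop := ∀ (g R k : ℕ) (L : Type) [Field L] [Algebra ℂ L] (t : Fin g → L)
  (a : Fin R → Fin (g + 1) → ℂ) (z : Fin k → L), 0 < g → IsFin (Fin.append t z) →
  IsArr a → ∀ Ee : Finset (Fin R ⊕ Fin k → ℤ), Ee.Nonempty → ∃ F : L, F ≠ 0 ∧
    (∀ w : AddValuation L (WithTop ℤ), (∀ c : ℂ, c ≠ 0 → w (algebraMap ℂ L c) = 0) →
      ∀ B : ℤ, (∀ γ ∈ Ee, B ≤ ∑ x, γ x * wts w t a z x) → B ≤ ov w F) ∧
    ∀ w : AddValuation L (WithTop ℤ), Q.IsDivisorial (g + k) w →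
      ∀ (D' : Fin (g + k) → Derivation ℂ L L) (h : L), h * Q.jac D' (Fin.append t z) = 1 →
      ∀ m' : ℤ, Q.FormOrder w D' m' → ∀ γ₀ ∈ Ee,
      (∀ γ ∈ Ee, ∑ x, γ₀ x * wts w t a z x ≤ ∑ x, γ x * wts w t a z x) →
      ov w h + logDisc a (wts w t a z) + (ov w F - ∑ x, γ₀ x * wts w t a z x) ≤ 1 + m'

/-- E5. The linear forms are not `0`, and the weights of a valuation. -/
def WtsTropL : Prop := ∀ (g R k : ℕ) (L : Type) [Field L] [Algebra ℂ L] (t : Fin g → L)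
  (a : Fin R → Fin (g + 1) → ℂ) (z : Fin k → L), IsFin (Fin.append t z) → IsArr a → 0 < g →
  (∀ p, form t a p ≠ 0) ∧ (∀ l, z l ≠ 0) ∧
  ∀ w : AddValuation L (WithTop ℤ), (∀ c : ℂ, c ≠ 0 → w (algebraMap ℂ L c) = 0) →
    OnTrop a (wts w t a z)

/-- E6. The log discrepancies at the lattice points. -/
def LcPointL : Prop := ∀ (g R k N M r J : ℕ) (L : Type) [Field L] [Algebra ℂ L] (t : Fin g → L)
  (a : Fin R → Fin (g + 1) → ℂ) (z : Fin k → L), 0 < g → IsFin (Fin.append t z) →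
  Module.finrank (IntermediateField.adjoin ℂ (Set.range (Fin.append t z))) L ≤ J →
  IsArr a → ∀ (v : Fin N → Fin R ⊕ Fin k → ℤ) (E : Fin (M + 1) → Fin R ⊕ Fin k → ℤ) (ε : ℝ),
  0 < ε → 0 < r → ∀ (D' : Fin (g + k) → Derivation ℂ L L) (h : L),
  h * Q.jac D' (Fin.append t z) = 1 → LcB v t a z D' h r E ε → LcPt a (ε / J) r v E

end Vale.Agent.P283.N647
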